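import Mathlib

open MeasureTheory ProbabilityTheory
open scoped RealInnerProductSpace

namespace Vale.Agent.Results.P226.HalfBound

/-- second moment of a linear functional under the standard Gaussian -/
lemma integral_inner_sq (d : ℕ) (z : EuclideanSpace ℝ (Fin d)) :
    ∫ x, (⟪z, x⟫) ^ 2 ∂(stdGaussian (EuclideanSpace ℝ (Fin d))) = ‖z‖ ^ 2 := by
  have h1 := variance_dual_stdGaussian (E := EuclideanSpace ℝ (Fin d)) (innerSL ℝ z)
  have h2 : (stdGaussian (EuclideanSpace ℝ (Fin d)))[(innerSL ℝ z)] = 0 :=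
    integral_strongDual_stdGaussian _
  rw [variance_of_integral_eq_zero (innerSL ℝ z).continuous.aemeasurable h2,
    innerSL_apply_norm] at h1
  simpa [innerSL_apply_apply] using h1

lemma integrable_inner_sq (d : ℕ) (z : EuclideanSpace ℝ (Fin d)) :
    Integrable (fun x => (⟪z, x⟫) ^ 2) (stdGaussian (EuclideanSpace ℝ (Fin d))) := by
  have h := (IsGaussian.memLp_dual (stdGaussian (EuclideanSpace ℝ (Fin d)))
    (innerSL ℝ z) 2 (by simp)).integrable_sq
  simpa [innerSL_apply_apply] using h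

lemma integrable_pos_sq (d : ℕ) (z : EuclideanSpace ℝ (Fin d)) :
    Integrable (fun x => (max (⟪z, x⟫) 0) ^ 2)
      (stdGaussian (EuclideanSpace ℝ (Fin d))) := by
  refine (integrable_inner_sq d z).mono' ?_ ?_
  · have : Continuous (fun x : EuclideanSpace ℝ (Fin d) => (max (⟪z, x⟫) 0) ^ 2) := by
      fun_prop
    exact this.aestronglyMeasurable
  · refine Filter.Eventually.of_forall (fun x => ?_)
    rw [Real.norm_eq_abs, abs_of_nonneg (by positivity)]
    rcases le_total (⟪z, x⟫) 0 with h | h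
    · rw [max_eq_right h]; nlinarith [sq_nonneg (⟪z, x⟫)]
    · rw [max_eq_left h]

/-- by the symmetry of the Gaussian the positive part carries half of the second moment -/
lemma integral_pos_sq (d : ℕ) (z : EuclideanSpace ℝ (Fin d)) :
    ∫ x, (max (⟪z, x⟫) 0) ^ 2 ∂(stdGaussian (EuclideanSpace ℝ (Fin d))) = ‖z‖ ^ 2 / 2 := by
  set γ := stdGaussian (EuclideanSpace ℝ (Fin d)) with hγ
  have hneg : Measure.map (fun x : EuclideanSpace ℝ (Fin d) => -x) γ = γ := by
    have := stdGaussian_map (LinearIsometryEquiv.neg ℝ (E := EuclideanSpace ℝ (Fin d)))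
    simpa using this
  have hcont : Continuous (fun x : EuclideanSpace ℝ (Fin d) => (max (⟪z, x⟫) 0) ^ 2) := by
    fun_prop
  have h1 : ∫ x, (max (⟪z, -x⟫) 0) ^ 2 ∂γ = ∫ x, (max (⟪z, x⟫) 0) ^ 2 ∂γ := by
    have := integral_map (μ := γ) (φ := fun x : EuclideanSpace ℝ (Fin d) => -x)
      (f := fun x => (max (⟪z, x⟫) 0) ^ 2) (by fun_prop) hcont.aestronglyMeasurable
    rw [hneg] at this
    exact this.symm
  have hint2 : Integrable (fun x => (max (⟪z, -x⟫) 0) ^ 2) γ := by
    have := integrable_pos_sq d (-z)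
    simpa [inner_neg_left, inner_neg_right] using this
  have h2 : ∫ x, ((max (⟪z, x⟫) 0) ^ 2 + (max (⟪z, -x⟫) 0) ^ 2) ∂γ = ‖z‖ ^ 2 := by
    rw [← integral_inner_sq d z]
    refine integral_congr_ae (Filter.Eventually.of_forall (fun x => ?_))
    simp only [inner_neg_right]
    rcases le_total (⟪z, x⟫) 0 with h | h
    · rw [max_eq_right h, max_eq_left (by linarith)]; ring
    · rw [max_eq_left h, max_eq_right (by linarith)]; ring
  rw [integral_add (integrable_pos_sq d z) hint2, h1] at h2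
  linarith

/-- one cell: the squared first moment is at most half of the Gaussian measure of the cell -/
lemma cell_bound (d : ℕ) (A : Set (EuclideanSpace ℝ (Fin d))) :
    ‖∫ x in A, x ∂(stdGaussian (EuclideanSpace ℝ (Fin d)))‖ ^ 2
      ≤ (stdGaussian (EuclideanSpace ℝ (Fin d))).real A / 2 := by
  set γ := stdGaussian (EuclideanSpace ℝ (Fin d)) with hγ
  set z := ∫ x in A, x ∂γ with hz
  have hid : Integrable (fun x : EuclideanSpace ℝ (Fin d) => x) γ := IsGaussian.integrable_id
  have h1 : ‖z‖ ^ 2 = ∫ x in A, ⟪z, x⟫ ∂γ := by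
    rw [integral_inner hid.restrict z, ← hz, real_inner_self_eq_norm_sq]
  have hint1 : Integrable (fun x => ⟪z, x⟫) (γ.restrict A) := hid.restrict.const_inner z
  have hint2 : Integrable (fun x => (1 / 4 : ℝ) + (max (⟪z, x⟫) 0) ^ 2) (γ.restrict A) :=
    (integrable_const _).add (integrable_pos_sq d z).restrict
  have h2 : ∫ x in A, ⟪z, x⟫ ∂γ ≤ ∫ x in A, ((1 / 4 : ℝ) + (max (⟪z, x⟫) 0) ^ 2) ∂γ := by
    refine integral_mono hint1 hint2 (fun x => ?_)
    show ⟪z, x⟫ ≤ 1 / 4 + (max (⟪z, x⟫) 0) ^ 2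
    rcases le_total (⟪z, x⟫) 0 with h | h
    · rw [max_eq_right h]; linarith
    · rw [max_eq_left h]; nlinarith [sq_nonneg (⟪z, x⟫ - 1 / 2)]
  have h3 : ∫ x in A, ((1 / 4 : ℝ) + (max (⟪z, x⟫) 0) ^ 2) ∂γ
      = γ.real A / 4 + ∫ x in A, (max (⟪z, x⟫) 0) ^ 2 ∂γ := by
    rw [integral_add (integrable_const _) (integrable_pos_sq d z).restrict]
    simp [Measure.real]
    ring
  have h4 : ∫ x in A, (max (⟪z, x⟫) 0) ^ 2 ∂γ ≤ ‖z‖ ^ 2 / 2 := by
    rw [← integral_pos_sq d z]
    exact setIntegral_le_integral (integrable_pos_sq d z)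
      (Filter.Eventually.of_forall (fun x => by positivity))
  linarith

/-- For every dimension `d`, every number `k` of cells and every family of pairwise disjoint
measurable cells of `ℝ^d`, the sum of the squared norms of the Gaussian first moments of the
cells is at most `1/2`. -/
theorem result (d k : ℕ) (A : Fin k → Set (EuclideanSpace ℝ (Fin d)))
    (hA : ∀ i, MeasurableSet (A i)) (hdisj : Pairwise (Function.onFun Disjoint A)) :
    ∑ i, ‖∫ x in A i, x ∂(stdGaussian (EuclideanSpace ℝ (Fin d)))‖ ^ 2 ≤ 1 / 2 := by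
  calc ∑ i, ‖∫ x in A i, x ∂(stdGaussian (EuclideanSpace ℝ (Fin d)))‖ ^ 2
      ≤ ∑ i, (stdGaussian (EuclideanSpace ℝ (Fin d))).real (A i) / 2 :=
        Finset.sum_le_sum (fun i _ => cell_bound d (A i))
    _ = (stdGaussian (EuclideanSpace ℝ (Fin d))).real (⋃ i, A i) / 2 := by
        rw [measureReal_iUnion_fintype hdisj hA, Finset.sum_div]
    _ ≤ 1 / 2 := by
        have : (stdGaussian (EuclideanSpace ℝ (Fin d))).real (⋃ i, A i) ≤ 1 :=
          measureReal_le_one
        linarith

end Vale.Agent.Results.P226.HalfBound
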