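import Mathlib

open MeasureTheory ProbabilityTheory Set
open scoped RealInnerProductSpace NNReal

namespace Vale.Agent.Results.P226.SharperBound

/-- the maximal density of the standard Gaussian on the line -/
noncomputable def c : ℝ := (√(2 * Real.pi))⁻¹

lemma c_pos : 0 < c := by unfold c; positivity

lemma c_sq : c ^ 2 * (2 * Real.pi) = 1 := by
  unfold c
  rw [inv_pow, Real.sq_sqrt (by positivity)]
  have : (2 * Real.pi) ≠ 0 := by positivity
  field_simp

lemma c_lt : c < 0.399 := by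
  have h := c_sq
  have h2 := Real.pi_gt_d4
  have h3 := c_pos
  by_contra hc
  push Not at hc
  have h4 : (0.399 : ℝ) ^ 2 ≤ c ^ 2 := by nlinarith
  nlinarith

lemma c_gt : 0.3989 < c := by
  have h := c_sq
  have h2 := Real.pi_lt_d4
  have h3 := c_pos
  have h5 := Real.pi_pos
  by_contra hc
  push Not at hc
  have h4 : c ^ 2 ≤ (0.3989 : ℝ) ^ 2 := by nlinarith
  nlinarith

lemma pdf_eq (x : ℝ) : gaussianPDFReal 0 1 x = c * Real.exp (-(x ^ 2) / 2) := by
  simp [gaussianPDFReal, c]

lemma pdf_le (x : ℝ) : gaussianPDFReal 0 1 x ≤ c := by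
  rw [pdf_eq]
  have : Real.exp (-(x ^ 2) / 2) ≤ 1 := by
    rw [Real.exp_le_one_iff]
    nlinarith [sq_nonneg x]
  nlinarith [c_pos]

lemma integral_Ioi_mul_exp : ∫ x in Ioi (0 : ℝ), x * Real.exp (-(1 / 2) * x ^ 2) = 1 := by
  have A : ∀ x ∈ Ici (0 : ℝ), HasDerivAt (fun x : ℝ => -Real.exp (-(1 / 2) * x ^ 2))
      (x * Real.exp (-(1 / 2) * x ^ 2)) x := by
    intro x _
    have h0 : HasDerivAt (fun x : ℝ => -Real.exp (-(1 / 2) * x ^ 2))
        (-(Real.exp (-(1 / 2) * x ^ 2) * (-(1 / 2) * ((2 : ℕ) * x ^ (2 - 1))))) x :=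
      (((hasDerivAt_pow 2 x).const_mul (-(1 / 2 : ℝ))).exp).neg
    refine h0.congr_deriv ?_
    push_cast
    ring
  have B : Filter.Tendsto (fun x : ℝ => -Real.exp (-(1 / 2) * x ^ 2)) Filter.atTop (nhds (-0)) := by
    refine Filter.Tendsto.neg ?_
    exact Real.tendsto_exp_atBot.comp
      ((Filter.tendsto_pow_atTop two_ne_zero).const_mul_atTop_of_neg (by norm_num))
  have C := integral_Ioi_of_hasDerivAt_of_tendsto' A
    (integrable_mul_exp_neg_mul_sq (b := 1 / 2) (by norm_num)).integrableOn B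
  rw [C]
  simp

lemma integral_abs : ∫ x, |x| ∂(gaussianReal 0 1) = 2 * c := by
  rw [integral_gaussianReal_eq_integral_smul (by norm_num)]
  have h1 : ∀ x : ℝ, gaussianPDFReal 0 1 x • |x|
      = (fun y => c * (y * Real.exp (-(1 / 2) * y ^ 2))) |x| := by
    intro x
    simp only [pdf_eq, sq_abs, smul_eq_mul]
    rw [show -(x ^ 2) / 2 = -(1 / 2) * x ^ 2 by ring]
    ring
  rw [integral_congr_ae (Filter.Eventually.of_forall h1),
    integral_comp_abs (f := fun y => c * (y * Real.exp (-(1 / 2) * y ^ 2))),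
    integral_const_mul, integral_Ioi_mul_exp]
  ring

lemma integrable_sq' : Integrable (fun x : ℝ => x ^ 2) (gaussianReal 0 1) := by
  have := (memLp_id_gaussianReal (μ := 0) (v := 1) 2).integrable_sq
  simpa using this

lemma integral_sq' : ∫ x, x ^ 2 ∂(gaussianReal 0 1) = 1 := by
  have h1 := variance_id_gaussianReal (μ := 0) (v := 1)
  rw [variance_of_integral_eq_zero measurable_id.aemeasurable
    (by simp [integral_id_gaussianReal])] at h1
  simpa using h1

lemma integrable_of_le (g : ℝ → ℝ) (hg : Continuous g) (C : ℝ)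
    (h : ∀ x, |g x| ≤ C * (1 + x ^ 2)) : Integrable g (gaussianReal 0 1) :=
  (((integrable_const (1 : ℝ)).add integrable_sq').const_mul C).mono' hg.aestronglyMeasurable
    (Filter.Eventually.of_forall (fun x => by simpa using h x))

lemma integrable_abs' : Integrable (fun x : ℝ => |x|) (gaussianReal 0 1) := by
  refine integrable_of_le _ (by fun_prop) 1 (fun x => ?_)
  rw [abs_abs]
  nlinarith [sq_abs x, sq_nonneg (|x| - 1)]

lemma integrable_tent (l : ℝ) (hl : 0 ≤ l) :
    Integrable (fun x : ℝ => max (l - |x|) 0) (gaussianReal 0 1) := by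
  refine integrable_of_le _ (by fun_prop) l (fun x => ?_)
  rw [abs_of_nonneg (le_max_right _ _)]
  refine max_le ?_ (by positivity)
  nlinarith [abs_nonneg x, sq_nonneg x]

lemma integral_Ioi_tent (l : ℝ) (hl : 0 ≤ l) :
    ∫ x in Ioi (0 : ℝ), max (l - x) 0 = l ^ 2 / 2 := by
  have h1 : ∫ x in Ioi (0 : ℝ), max (l - x) 0 = ∫ x in Ioc (0 : ℝ) l, max (l - x) 0 := by
    refine setIntegral_eq_of_subset_of_forall_sdiff_eq_zero measurableSet_Ioi
      Ioc_subset_Ioi_self (fun x hx => ?_)
    have hx1 : 0 < x := hx.1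
    have hx2 : l < x := by
      by_contra hcon
      push Not at hcon
      exact hx.2 ⟨hx1, hcon⟩
    exact max_eq_right (by linarith)
  rw [h1, ← intervalIntegral.integral_of_le hl]
  have h2 : ∫ x in (0 : ℝ)..l, max (l - x) 0 = ∫ x in (0 : ℝ)..l, (l - x) := by
    refine intervalIntegral.integral_congr (fun x hx => ?_)
    rw [uIcc_of_le hl] at hx
    exact max_eq_left (by linarith [hx.2])
  rw [h2, intervalIntegral.integral_sub (by simp) (by simp)]
  simp
  ring

lemma integral_tent (l : ℝ) (hl : 0 ≤ l) :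
    ∫ x, max (l - |x|) 0 ∂(gaussianReal 0 1) ≤ c * l ^ 2 := by
  rw [integral_gaussianReal_eq_integral_smul (by norm_num)]
  have hint : Integrable (fun x : ℝ => max (l - |x|) 0) volume := by
    refine Continuous.integrable_of_hasCompactSupport (by fun_prop) ?_
    refine HasCompactSupport.intro (isCompact_Icc (a := -l) (b := l)) (fun x hx => ?_)
    refine max_eq_right ?_
    by_contra hcon
    push Not at hcon
    have : |x| < l := by linarith
    rw [abs_lt] at this
    exact hx ⟨this.1.le, this.2.le⟩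
  calc ∫ x, gaussianPDFReal 0 1 x • max (l - |x|) 0
      ≤ ∫ x, c * max (l - |x|) 0 := by
        refine integral_mono_of_nonneg (Filter.Eventually.of_forall (fun x => ?_))
          (hint.const_mul c) (Filter.Eventually.of_forall (fun x => ?_))
        · exact mul_nonneg (gaussianPDFReal_nonneg _ _ _) (le_max_right _ _)
        · exact mul_le_mul_of_nonneg_right (pdf_le x) (le_max_right _ _)
    _ = c * l ^ 2 := by
        rw [integral_const_mul, integral_comp_abs (f := fun y => max (l - y) 0),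
          integral_Ioi_tent l hl]
        ring

lemma integral_comp_neg' (g : ℝ → ℝ) (hg : Continuous g) :
    ∫ x, g (-x) ∂(gaussianReal 0 1) = ∫ x, g x ∂(gaussianReal 0 1) := by
  have h := gaussianReal_map_neg (μ := 0) (v := 1)
  have h2 := integral_map (μ := gaussianReal 0 1) (φ := fun x : ℝ => -x) (f := g)
    (by fun_prop) hg.aestronglyMeasurable
  rw [h] at h2
  simpa using h2.symm

lemma integrable_pos (l : ℝ) (hl : 0 ≤ l) :
    Integrable (fun x : ℝ => max (x - l) 0) (gaussianReal 0 1) := by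
  refine integrable_of_le _ (by fun_prop) 1 (fun x => ?_)
  rw [abs_of_nonneg (le_max_right _ _)]
  refine max_le ?_ (by positivity)
  nlinarith [sq_nonneg (x - 1)]

lemma integrable_pos_neg (l : ℝ) (hl : 0 ≤ l) :
    Integrable (fun x : ℝ => max (-x - l) 0) (gaussianReal 0 1) := by
  refine integrable_of_le _ (by fun_prop) 1 (fun x => ?_)
  rw [abs_of_nonneg (le_max_right _ _)]
  refine max_le ?_ (by positivity)
  nlinarith [sq_nonneg (x + 1)]

/-- upper bound for the mean excess of a standard Gaussian over a level `l ≥ 0` -/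
lemma psi_le (l : ℝ) (hl : 0 ≤ l) :
    ∫ x, max (x - l) 0 ∂(gaussianReal 0 1) ≤ c * (1 + l ^ 2 / 2) - l / 2 := by
  have h1 : ∫ x, max (-x - l) 0 ∂(gaussianReal 0 1) = ∫ x, max (x - l) 0 ∂(gaussianReal 0 1) :=
    integral_comp_neg' (fun x => max (x - l) 0) (by fun_prop)
  have h2 : ∫ x, (max (x - l) 0 + max (-x - l) 0) ∂(gaussianReal 0 1)
      = ∫ x, (|x| - l + max (l - |x|) 0) ∂(gaussianReal 0 1) := by
    refine integral_congr_ae (Filter.Eventually.of_forall (fun x => ?_))
    show max (x - l) 0 + max (-x - l) 0 = |x| - l + max (l - |x|) 0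
    rcases le_total 0 x with hx | hx
    · rw [abs_of_nonneg hx, max_eq_right (show -x - l ≤ 0 by linarith)]
      rcases le_total x l with h | h
      · rw [max_eq_right (by linarith), max_eq_left (by linarith)]; ring
      · rw [max_eq_left (by linarith), max_eq_right (by linarith)]
    · rw [abs_of_nonpos hx, max_eq_right (show x - l ≤ 0 by linarith)]
      rcases le_total (-x) l with h | h
      · rw [max_eq_right (by linarith), max_eq_left (by linarith)]; ring
      · rw [max_eq_left (by linarith), max_eq_right (by linarith)]; ring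
  rw [integral_add (integrable_pos l hl) (integrable_pos_neg l hl), h1] at h2
  have h3 : ∫ x, (|x| - l + max (l - |x|) 0) ∂(gaussianReal 0 1)
      = 2 * c - l + ∫ x, max (l - |x|) 0 ∂(gaussianReal 0 1) := by
    have hi : Integrable (fun x : ℝ => |x| - l) (gaussianReal 0 1) :=
      integrable_abs'.sub (integrable_const l)
    rw [integral_add hi (integrable_tent l hl),
      integral_sub integrable_abs' (integrable_const l), integral_abs]
    simp
  nlinarith [integral_tent l hl]

lemma integrable_pos_sq (t : ℝ) (ht : 0 ≤ t) :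
    Integrable (fun x : ℝ => (max (x - t) 0) ^ 2) (gaussianReal 0 1) := by
  refine integrable_of_le _ (by fun_prop) 1 (fun x => ?_)
  rw [abs_of_nonneg (by positivity)]
  rcases le_total (x - t) 0 with h | h
  · rw [max_eq_right h]; nlinarith [sq_nonneg x]
  · rw [max_eq_left h]; nlinarith [sq_nonneg x]

lemma integrable_pos_neg_sq (t : ℝ) (ht : 0 ≤ t) :
    Integrable (fun x : ℝ => (max (-x - t) 0) ^ 2) (gaussianReal 0 1) := by
  refine integrable_of_le _ (by fun_prop) 1 (fun x => ?_)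
  rw [abs_of_nonneg (by positivity)]
  rcases le_total (-x - t) 0 with h | h
  · rw [max_eq_right h]; nlinarith [sq_nonneg x]
  · rw [max_eq_left h]; nlinarith [sq_nonneg x]

/-- upper bound for the mean squared excess of a standard Gaussian over a level `t ≥ 0` -/
lemma V_le (t : ℝ) (ht : 0 ≤ t) :
    ∫ x, (max (x - t) 0) ^ 2 ∂(gaussianReal 0 1) ≤ (1 - 4 * c * t + t ^ 2) / 2 := by
  have h1 : ∫ x, (max (-x - t) 0) ^ 2 ∂(gaussianReal 0 1)
      = ∫ x, (max (x - t) 0) ^ 2 ∂(gaussianReal 0 1) :=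
    integral_comp_neg' (fun x => (max (x - t) 0) ^ 2) (by fun_prop)
  have hi3 : Integrable (fun x : ℝ => x ^ 2 - (2 * t) * |x| + t ^ 2) (gaussianReal 0 1) :=
    (integrable_sq'.sub (integrable_abs'.const_mul (2 * t))).add (integrable_const _)
  have h2 : ∫ x, ((max (x - t) 0) ^ 2 + (max (-x - t) 0) ^ 2) ∂(gaussianReal 0 1)
      ≤ ∫ x, (x ^ 2 - (2 * t) * |x| + t ^ 2) ∂(gaussianReal 0 1) := by
    refine integral_mono ((integrable_pos_sq t ht).add (integrable_pos_neg_sq t ht)) hi3
      (fun x => ?_)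
    show (max (x - t) 0) ^ 2 + (max (-x - t) 0) ^ 2 ≤ x ^ 2 - (2 * t) * |x| + t ^ 2
    rcases le_total 0 x with hx | hx
    · rw [abs_of_nonneg hx, max_eq_right (show -x - t ≤ 0 by linarith)]
      rcases le_total (x - t) 0 with h | h
      · rw [max_eq_right h]; nlinarith [sq_nonneg (x - t)]
      · rw [max_eq_left h]; nlinarith
    · rw [abs_of_nonpos hx, max_eq_right (show x - t ≤ 0 by linarith)]
      rcases le_total (-x - t) 0 with h | h
      · rw [max_eq_right h]; nlinarith [sq_nonneg (x + t)]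
      · rw [max_eq_left h]; nlinarith
  rw [integral_add (integrable_pos_sq t ht) (integrable_pos_neg_sq t ht), h1] at h2
  have h3 : ∫ x, (x ^ 2 - (2 * t) * |x| + t ^ 2) ∂(gaussianReal 0 1)
      = 1 - (2 * t) * (2 * c) + t ^ 2 := by
    have hi : Integrable (fun x : ℝ => x ^ 2 - (2 * t) * |x|) (gaussianReal 0 1) :=
      integrable_sq'.sub (integrable_abs'.const_mul (2 * t))
    rw [integral_add hi (integrable_const _),
      integral_sub integrable_sq' (integrable_abs'.const_mul (2 * t)),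
      integral_const_mul, integral_abs, integral_sq']
    simp
  nlinarith

/-- a unit linear functional pushes the standard Gaussian of `ℝ^d` to the one of the line -/
lemma map_inner (d : ℕ) (u : EuclideanSpace ℝ (Fin d)) (hu : ‖u‖ = 1) :
    (stdGaussian (EuclideanSpace ℝ (Fin d))).map (innerSL ℝ u) = gaussianReal 0 1 := by
  rw [IsGaussian.map_eq_gaussianReal (innerSL ℝ u), integral_strongDual_stdGaussian,
    variance_dual_stdGaussian, innerSL_apply_norm, hu]
  simp

lemma integral_comp_inner (d : ℕ) (u : EuclideanSpace ℝ (Fin d)) (hu : ‖u‖ = 1)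
    (g : ℝ → ℝ) (hg : Continuous g) :
    ∫ x, g ⟪u, x⟫ ∂(stdGaussian (EuclideanSpace ℝ (Fin d))) = ∫ y, g y ∂(gaussianReal 0 1) := by
  rw [← map_inner d u hu,
    integral_map (innerSL ℝ u).continuous.aemeasurable hg.aestronglyMeasurable]
  simp [innerSL_apply_apply]

lemma integrable_comp_inner (d : ℕ) (u : EuclideanSpace ℝ (Fin d)) (hu : ‖u‖ = 1)
    (g : ℝ → ℝ) (hg : Continuous g) (hi : Integrable g (gaussianReal 0 1)) :
    Integrable (fun x => g ⟪u, x⟫) (stdGaussian (EuclideanSpace ℝ (Fin d))) := by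
  rw [← map_inner d u hu,
    integrable_map_measure hg.aestronglyMeasurable (innerSL ℝ u).continuous.aemeasurable] at hi
  simpa [Function.comp_def, innerSL_apply_apply] using hi

/-- line bound: `∫_A ⟨u,x⟩ ≤ l γ(A) + ψ(l)` -/
lemma line_bound (d : ℕ) (A : Set (EuclideanSpace ℝ (Fin d)))
    (u : EuclideanSpace ℝ (Fin d)) (hu : ‖u‖ = 1) (l : ℝ) (hl : 0 ≤ l) :
    ∫ x in A, ⟪u, x⟫ ∂(stdGaussian (EuclideanSpace ℝ (Fin d)))
      ≤ l * (stdGaussian (EuclideanSpace ℝ (Fin d))).real A
        + (c * (1 + l ^ 2 / 2) - l / 2) := by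
  set γ := stdGaussian (EuclideanSpace ℝ (Fin d)) with hγ
  have hid : Integrable (fun x : EuclideanSpace ℝ (Fin d) => x) γ := IsGaussian.integrable_id
  have hint1 : Integrable (fun x => ⟪u, x⟫) (γ.restrict A) := hid.restrict.const_inner u
  have hp : Integrable (fun x => max (⟪u, x⟫ - l) 0) γ :=
    integrable_comp_inner d u hu (fun y => max (y - l) 0) (by fun_prop) (integrable_pos l hl)
  have hint2 : Integrable (fun x => l + max (⟪u, x⟫ - l) 0) (γ.restrict A) :=
    (integrable_const _).add hp.restrict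
  have h2 : ∫ x in A, ⟪u, x⟫ ∂γ ≤ ∫ x in A, (l + max (⟪u, x⟫ - l) 0) ∂γ := by
    refine integral_mono hint1 hint2 (fun x => ?_)
    show ⟪u, x⟫ ≤ l + max (⟪u, x⟫ - l) 0
    linarith [le_max_left (⟪u, x⟫ - l) 0]
  have h3 : ∫ x in A, (l + max (⟪u, x⟫ - l) 0) ∂γ
      = l * γ.real A + ∫ x in A, max (⟪u, x⟫ - l) 0 ∂γ := by
    rw [integral_add (integrable_const _) hp.restrict]
    simp [Measure.real]
    ring
  have h4 : ∫ x in A, max (⟪u, x⟫ - l) 0 ∂γ ≤ c * (1 + l ^ 2 / 2) - l / 2 := by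
    refine le_trans (setIntegral_le_integral hp
      (Filter.Eventually.of_forall (fun x => le_max_right _ _))) ?_
    rw [integral_comp_inner d u hu (fun y => max (y - l) 0) (by fun_prop)]
    exact psi_le l hl
  linarith

/-- quadratic bound: `κ (∫_A ⟨u,x⟩ - t γ(A)) ≤ γ(A)/4 + κ² V(t)` -/
lemma quad_bound (d : ℕ) (A : Set (EuclideanSpace ℝ (Fin d)))
    (u : EuclideanSpace ℝ (Fin d)) (hu : ‖u‖ = 1) (t : ℝ) (ht : 0 ≤ t) (k : ℝ) (hk : 0 ≤ k) :
    k * (∫ x in A, ⟪u, x⟫ ∂(stdGaussian (EuclideanSpace ℝ (Fin d)))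
        - t * (stdGaussian (EuclideanSpace ℝ (Fin d))).real A)
      ≤ (stdGaussian (EuclideanSpace ℝ (Fin d))).real A / 4
        + k ^ 2 * ((1 - 4 * c * t + t ^ 2) / 2) := by
  set γ := stdGaussian (EuclideanSpace ℝ (Fin d)) with hγ
  have hid : Integrable (fun x : EuclideanSpace ℝ (Fin d) => x) γ := IsGaussian.integrable_id
  have hint1 : Integrable (fun x => ⟪u, x⟫) (γ.restrict A) := hid.restrict.const_inner u
  have hint1' : Integrable (fun x => k * (⟪u, x⟫ - t)) (γ.restrict A) :=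
    (hint1.sub (integrable_const t)).const_mul k
  have hp : Integrable (fun x => (max (⟪u, x⟫ - t) 0) ^ 2) γ :=
    integrable_comp_inner d u hu (fun y => (max (y - t) 0) ^ 2) (by fun_prop)
      (integrable_pos_sq t ht)
  have hint2 : Integrable (fun x => (1 / 4 : ℝ) + k ^ 2 * (max (⟪u, x⟫ - t) 0) ^ 2)
      (γ.restrict A) :=
    (integrable_const _).add (hp.restrict.const_mul _)
  have h2 : ∫ x in A, k * (⟪u, x⟫ - t) ∂γ
      ≤ ∫ x in A, ((1 / 4 : ℝ) + k ^ 2 * (max (⟪u, x⟫ - t) 0) ^ 2) ∂γ := by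
    refine integral_mono hint1' hint2 (fun x => ?_)
    show k * (⟪u, x⟫ - t) ≤ 1 / 4 + k ^ 2 * (max (⟪u, x⟫ - t) 0) ^ 2
    rcases le_total (⟪u, x⟫ - t) 0 with h | h
    · rw [max_eq_right h]
      nlinarith [mul_nonneg hk (neg_nonneg.mpr h)]
    · rw [max_eq_left h]
      nlinarith [sq_nonneg (k * (⟪u, x⟫ - t) - 1 / 2)]
  have h1 : ∫ x in A, k * (⟪u, x⟫ - t) ∂γ = k * (∫ x in A, ⟪u, x⟫ ∂γ - t * γ.real A) := by
    rw [integral_const_mul, integral_sub hint1 (integrable_const t)]
    simp [Measure.real]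
    ring_nf
    simp
  have h3 : ∫ x in A, ((1 / 4 : ℝ) + k ^ 2 * (max (⟪u, x⟫ - t) 0) ^ 2) ∂γ
      = γ.real A / 4 + k ^ 2 * ∫ x in A, (max (⟪u, x⟫ - t) 0) ^ 2 ∂γ := by
    rw [integral_add (integrable_const _) (hp.restrict.const_mul _), integral_const_mul]
    simp [Measure.real]
    ring
  have h4 : ∫ x in A, (max (⟪u, x⟫ - t) 0) ^ 2 ∂γ ≤ (1 - 4 * c * t + t ^ 2) / 2 := by
    refine le_trans (setIntegral_le_integral hp
      (Filter.Eventually.of_forall (fun x => by positivity))) ?_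
    rw [integral_comp_inner d u hu (fun y => (max (y - t) 0) ^ 2) (by fun_prop)]
    exact V_le t ht
  have h5 : k ^ 2 * ∫ x in A, (max (⟪u, x⟫ - t) 0) ^ 2 ∂γ
      ≤ k ^ 2 * ((1 - 4 * c * t + t ^ 2) / 2) :=
    mul_le_mul_of_nonneg_left h4 (by positivity)
  linarith

/-- the elementary optimisation: four line bounds and one quadratic bound give `s² ≤ 0.42 a` -/
lemma numeric (s a : ℝ) (hs : 0 ≤ s) (ha : 0 ≤ a)
    (hline : ∀ l : ℝ, 0 ≤ l → s ≤ l * a + (c * (1 + l ^ 2 / 2) - l / 2))
    (hquad : ∀ k : ℝ, 0 ≤ k →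
      k * (s - 0.4 * a) ≤ a / 4 + k ^ 2 * ((1 - 4 * c * 0.4 + 0.4 ^ 2) / 2)) :
    s ^ 2 ≤ 21 / 50 * a := by
  have hc1 := c_lt
  have hc2 := c_gt
  have h0 : s ≤ 0.399 := by
    have := hline 0 le_rfl
    norm_num at this
    linarith
  rcases le_total s 0.18 with h18 | h18
  · rcases le_total s (0.4 * a) with hsa | hsa
    · nlinarith
    · have hw : 0 ≤ s - 0.4 * a := by linarith
      have hV : (1 - 4 * c * 0.4 + 0.4 ^ 2) / 2 ≤ (0.26088 : ℝ) := by nlinarith
      have hk := hquad ((s - 0.4 * a) / (2 * 0.26088)) (by positivity)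
      have hk2 : ((s - 0.4 * a) / (2 * 0.26088)) ^ 2 * ((1 - 4 * c * 0.4 + 0.4 ^ 2) / 2)
          ≤ ((s - 0.4 * a) / (2 * 0.26088)) ^ 2 * 0.26088 :=
        mul_le_mul_of_nonneg_left hV (by positivity)
      have hw2 : (s - 0.4 * a) ^ 2 ≤ 0.26088 * a := by
        have e1 : (s - 0.4 * a) / (2 * 0.26088) * (s - 0.4 * a)
            = (s - 0.4 * a) ^ 2 / (2 * 0.26088) := by ring
        have e2 : ((s - 0.4 * a) / (2 * 0.26088)) ^ 2 * 0.26088
            = (s - 0.4 * a) ^ 2 / (4 * 0.26088) := by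
          field_simp
          ring
        rw [e1] at hk
        rw [e2] at hk2
        have e3 : (s - 0.4 * a) ^ 2 / (2 * 0.26088) - (s - 0.4 * a) ^ 2 / (4 * 0.26088)
            = (s - 0.4 * a) ^ 2 / (4 * 0.26088) := by ring
        have e4 : (s - 0.4 * a) ^ 2 / (4 * 0.26088) ≤ a / 4 := by linarith
        rw [div_le_iff₀ (by norm_num)] at e4
        linarith
      nlinarith [mul_nonneg ha hs, mul_nonneg ha (sub_nonneg.mpr h18), sq_nonneg a]
  · rcases le_total s 0.24 with h24 | h24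
    · have := hline 1 (by norm_num)
      nlinarith [mul_nonneg (sub_nonneg.mpr h18) (sub_nonneg.mpr h24)]
    · rcases le_total s 0.30 with h30 | h30
      · have := hline 0.8 (by norm_num)
        nlinarith [mul_nonneg (sub_nonneg.mpr h24) (sub_nonneg.mpr h30)]
      · have := hline 0.6 (by norm_num)
        nlinarith [mul_nonneg (sub_nonneg.mpr h30) (sub_nonneg.mpr h0)]

/-- one cell: the squared first moment is at most `0.42` times the Gaussian measure -/
lemma cell_bound (d : ℕ) (A : Set (EuclideanSpace ℝ (Fin d))) :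
    ‖∫ x in A, x ∂(stdGaussian (EuclideanSpace ℝ (Fin d)))‖ ^ 2
      ≤ 21 / 50 * (stdGaussian (EuclideanSpace ℝ (Fin d))).real A := by
  set γ := stdGaussian (EuclideanSpace ℝ (Fin d)) with hγ
  set z := ∫ x in A, x ∂γ with hz
  have hid : Integrable (fun x : EuclideanSpace ℝ (Fin d) => x) γ := IsGaussian.integrable_id
  by_cases hz0 : z = 0
  · rw [hz0]
    simp
  have hs : 0 < ‖z‖ := norm_pos_iff.mpr hz0
  set u : EuclideanSpace ℝ (Fin d) := (‖z‖)⁻¹ • z with hu
  have hu1 : ‖u‖ = 1 := by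
    rw [hu, norm_smul, norm_inv, norm_norm]
    field_simp
  have h1 : ∫ x in A, ⟪u, x⟫ ∂γ = ‖z‖ := by
    rw [integral_inner hid.restrict u, ← hz, hu, real_inner_smul_left,
      real_inner_self_eq_norm_sq]
    field_simp
  refine numeric ‖z‖ (γ.real A) hs.le measureReal_nonneg (fun l hl => ?_) (fun k hk => ?_)
  · rw [← h1]
    exact line_bound d A u hu1 l hl
  · rw [← h1]
    exact quad_bound d A u hu1 0.4 (by norm_num) k hk

/-- For every dimension `d`, every number `k` of cells and every family of pairwise disjoint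
measurable cells of `ℝ^d`, the sum of the squared norms of the Gaussian first moments of the
cells is at most `21/50 = 0.42`. -/
theorem result (d k : ℕ) (A : Fin k → Set (EuclideanSpace ℝ (Fin d)))
    (hA : ∀ i, MeasurableSet (A i)) (hdisj : Pairwise (Function.onFun Disjoint A)) :
    ∑ i, ‖∫ x in A i, x ∂(stdGaussian (EuclideanSpace ℝ (Fin d)))‖ ^ 2 ≤ 21 / 50 := by
  calc ∑ i, ‖∫ x in A i, x ∂(stdGaussian (EuclideanSpace ℝ (Fin d)))‖ ^ 2
      ≤ ∑ i, 21 / 50 * (stdGaussian (EuclideanSpace ℝ (Fin d))).real (A i) :=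
        Finset.sum_le_sum (fun i _ => cell_bound d (A i))
    _ = 21 / 50 * (stdGaussian (EuclideanSpace ℝ (Fin d))).real (⋃ i, A i) := by
        rw [measureReal_iUnion_fintype hdisj hA, Finset.mul_sum]
    _ ≤ 21 / 50 := by
        have : (stdGaussian (EuclideanSpace ℝ (Fin d))).real (⋃ i, A i) ≤ 1 :=
          measureReal_le_one
        linarith

end Vale.Agent.Results.P226.SharperBound
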