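import Mathlib
import Vale.Agent.Results.P226.SharperBound

open MeasureTheory ProbabilityTheory Set
open scoped RealInnerProductSpace NNReal

namespace Vale.Agent.Results.P226.SmallCells

open Vale.Agent.Results.P226.SharperBound

lemma c_lt' : c < 0.39895 := by
  have h := c_sq
  have h2 := Real.pi_gt_d6
  have h3 := c_pos
  by_contra hc
  push Not at hc
  have h4 : (0.39895 : ℝ) ^ 2 ≤ c ^ 2 := by nlinarith
  nlinarith

lemma exp_neg_le (y : ℝ) (hy : 0 ≤ y) : Real.exp (-y) ≤ 1 - y + y ^ 2 / 2 := by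
  have h1 := Real.quadratic_le_exp_of_nonneg hy
  rw [Real.exp_neg]
  have hpos : 0 < 1 + y + y ^ 2 / 2 := by positivity
  calc (Real.exp y)⁻¹ ≤ (1 + y + y ^ 2 / 2)⁻¹ := inv_anti₀ hpos h1
    _ ≤ 1 - y + y ^ 2 / 2 := by
        rw [inv_le_iff_one_le_mul₀ hpos]
        nlinarith [sq_nonneg (y ^ 2)]

lemma pdf_le' (x : ℝ) : gaussianPDFReal 0 1 x ≤ c * (1 - x ^ 2 / 2 + x ^ 4 / 8) := by
  rw [pdf_eq]
  have h := exp_neg_le (x ^ 2 / 2) (by positivity)
  have e : -(x ^ 2) / 2 = -(x ^ 2 / 2) := by ring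
  rw [e]
  have : Real.exp (-(x ^ 2 / 2)) ≤ 1 - x ^ 2 / 2 + x ^ 4 / 8 := by
    refine h.trans (le_of_eq ?_)
    ring
  exact mul_le_mul_of_nonneg_left this c_pos.le

lemma integral_Ioi_tent' (l : ℝ) (hl : 0 ≤ l) :
    ∫ x in Ioi (0 : ℝ), (1 - x ^ 2 / 2 + x ^ 4 / 8) * max (l - x) 0
      = l ^ 2 / 2 - l ^ 4 / 24 + l ^ 6 / 240 := by
  have h1 : ∫ x in Ioi (0 : ℝ), (1 - x ^ 2 / 2 + x ^ 4 / 8) * max (l - x) 0
      = ∫ x in Ioc (0 : ℝ) l, (1 - x ^ 2 / 2 + x ^ 4 / 8) * max (l - x) 0 := by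
    refine setIntegral_eq_of_subset_of_forall_sdiff_eq_zero measurableSet_Ioi
      Ioc_subset_Ioi_self (fun x hx => ?_)
    have hx1 : 0 < x := hx.1
    have hx2 : l < x := by
      by_contra hcon
      push Not at hcon
      exact hx.2 ⟨hx1, hcon⟩
    rw [max_eq_right (by linarith), mul_zero]
  rw [h1, ← intervalIntegral.integral_of_le hl]
  have h2 : ∫ x in (0 : ℝ)..l, (1 - x ^ 2 / 2 + x ^ 4 / 8) * max (l - x) 0
      = ∫ x in (0 : ℝ)..l, (1 - x ^ 2 / 2 + x ^ 4 / 8) * (l - x) := by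
    refine intervalIntegral.integral_congr (fun x hx => ?_)
    rw [uIcc_of_le hl] at hx
    show (1 - x ^ 2 / 2 + x ^ 4 / 8) * max (l - x) 0 = (1 - x ^ 2 / 2 + x ^ 4 / 8) * (l - x)
    rw [max_eq_left (by linarith [hx.2])]
  rw [h2]
  have hder : ∀ x ∈ uIcc (0 : ℝ) l, HasDerivAt
      (fun x : ℝ => l * x - x ^ 2 / 2 - l * x ^ 3 / 6 + x ^ 4 / 8 + l * x ^ 5 / 40 - x ^ 6 / 48)
      ((1 - x ^ 2 / 2 + x ^ 4 / 8) * (l - x)) x := by
    intro x _
    have d1 : HasDerivAt (fun x : ℝ => l * x) (l * 1) x := (hasDerivAt_id x).const_mul l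
    have d2 : HasDerivAt (fun x : ℝ => x ^ 2 / 2) (((2 : ℕ) * x ^ (2 - 1)) / 2) x :=
      (hasDerivAt_pow 2 x).div_const 2
    have d3 : HasDerivAt (fun x : ℝ => l * x ^ 3 / 6) ((l * ((3 : ℕ) * x ^ (3 - 1))) / 6) x :=
      ((hasDerivAt_pow 3 x).const_mul l).div_const 6
    have d4 : HasDerivAt (fun x : ℝ => x ^ 4 / 8) (((4 : ℕ) * x ^ (4 - 1)) / 8) x :=
      (hasDerivAt_pow 4 x).div_const 8
    have d5 : HasDerivAt (fun x : ℝ => l * x ^ 5 / 40) ((l * ((5 : ℕ) * x ^ (5 - 1))) / 40) x :=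
      ((hasDerivAt_pow 5 x).const_mul l).div_const 40
    have d6 : HasDerivAt (fun x : ℝ => x ^ 6 / 48) (((6 : ℕ) * x ^ (6 - 1)) / 48) x :=
      (hasDerivAt_pow 6 x).div_const 48
    refine (((((d1.sub d2).sub d3).add d4).add d5).sub d6).congr_deriv ?_
    push_cast
    ring
  rw [intervalIntegral.integral_eq_sub_of_hasDerivAt hder
    (Continuous.intervalIntegrable (by fun_prop) _ _)]
  ring

lemma integral_tent' (l : ℝ) (hl : 0 ≤ l) :
    ∫ x, max (l - |x|) 0 ∂(gaussianReal 0 1) ≤ c * (l ^ 2 - l ^ 4 / 12 + l ^ 6 / 120) := by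
  rw [integral_gaussianReal_eq_integral_smul (by norm_num)]
  have hint : Integrable (fun x : ℝ => (1 - |x| ^ 2 / 2 + |x| ^ 4 / 8) * max (l - |x|) 0)
      volume := by
    refine Continuous.integrable_of_hasCompactSupport (by fun_prop) ?_
    refine HasCompactSupport.intro (isCompact_Icc (a := -l) (b := l)) (fun x hx => ?_)
    have : max (l - |x|) 0 = 0 := by
      refine max_eq_right ?_
      by_contra hcon
      push Not at hcon
      have : |x| < l := by linarith
      rw [abs_lt] at this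
      exact hx ⟨this.1.le, this.2.le⟩
    rw [this, mul_zero]
  calc ∫ x, gaussianPDFReal 0 1 x • max (l - |x|) 0
      ≤ ∫ x, c * ((1 - |x| ^ 2 / 2 + |x| ^ 4 / 8) * max (l - |x|) 0) := by
        refine integral_mono_of_nonneg (Filter.Eventually.of_forall (fun x => ?_))
          (hint.const_mul c) (Filter.Eventually.of_forall (fun x => ?_))
        · exact mul_nonneg (gaussianPDFReal_nonneg _ _ _) (le_max_right _ _)
        · show gaussianPDFReal 0 1 x * max (l - |x|) 0
            ≤ c * ((1 - |x| ^ 2 / 2 + |x| ^ 4 / 8) * max (l - |x|) 0)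
          rw [← mul_assoc]
          refine mul_le_mul_of_nonneg_right ?_ (le_max_right _ _)
          have h := pdf_le' x
          have e4 : |x| ^ 4 = x ^ 4 := by
            rw [show (4 : ℕ) = 2 * 2 by norm_num, pow_mul, pow_mul, sq_abs]
          rw [sq_abs, e4]
          exact h
    _ = c * (l ^ 2 - l ^ 4 / 12 + l ^ 6 / 120) := by
        rw [integral_const_mul,
          integral_comp_abs (f := fun y => (1 - y ^ 2 / 2 + y ^ 4 / 8) * max (l - y) 0),
          integral_Ioi_tent' l hl]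
        ring

/-- sharper upper bound for the mean excess of a standard Gaussian over a level `l ≥ 0` -/
lemma psi_le' (l : ℝ) (hl : 0 ≤ l) :
    ∫ x, max (x - l) 0 ∂(gaussianReal 0 1)
      ≤ c * (1 + l ^ 2 / 2 - l ^ 4 / 24 + l ^ 6 / 240) - l / 2 := by
  have h1 : ∫ x, max (-x - l) 0 ∂(gaussianReal 0 1) = ∫ x, max (x - l) 0 ∂(gaussianReal 0 1) :=
    integral_comp_neg' (fun x => max (x - l) 0) (by fun_prop)
  have h2 : ∫ x, (max (x - l) 0 + max (-x - l) 0) ∂(gaussianReal 0 1)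
      = ∫ x, (|x| - l + max (l - |x|) 0) ∂(gaussianReal 0 1) := by
    refine integral_congr_ae (Filter.Eventually.of_forall (fun x => ?_))
    show max (x - l) 0 + max (-x - l) 0 = |x| - l + max (l - |x|) 0
    rcases le_total 0 x with hx | hx
    · rw [abs_of_nonneg hx, max_eq_right (show -x - l ≤ 0 by linarith)]
      rcases le_total x l with h | h
      · rw [max_eq_right (by linarith), max_eq_left (by linarith)]; ring
      · rw [max_eq_left (by linarith), max_eq_right (by linarith)]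
    · rw [abs_of_nonpos hx, max_eq_right (show x - l ≤ 0 by linarith)]
      rcases le_total (-x) l with h | h
      · rw [max_eq_right (by linarith), max_eq_left (by linarith)]; ring
      · rw [max_eq_left (by linarith), max_eq_right (by linarith)]; ring
  rw [integral_add (integrable_pos l hl) (integrable_pos_neg l hl), h1] at h2
  have h3 : ∫ x, (|x| - l + max (l - |x|) 0) ∂(gaussianReal 0 1)
      = 2 * c - l + ∫ x, max (l - |x|) 0 ∂(gaussianReal 0 1) := by
    have hi : Integrable (fun x : ℝ => |x| - l) (gaussianReal 0 1) :=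
      integrable_abs'.sub (integrable_const l)
    rw [integral_add hi (integrable_tent l hl),
      integral_sub integrable_abs' (integrable_const l), integral_abs]
    simp
  nlinarith [integral_tent' l hl]

/-- sharper line bound: `∫_A ⟨u,x⟩ ≤ l γ(A) + ψ(l)` -/
lemma line_bound' (d : ℕ) (A : Set (EuclideanSpace ℝ (Fin d)))
    (u : EuclideanSpace ℝ (Fin d)) (hu : ‖u‖ = 1) (l : ℝ) (hl : 0 ≤ l) :
    ∫ x in A, ⟪u, x⟫ ∂(stdGaussian (EuclideanSpace ℝ (Fin d)))
      ≤ l * (stdGaussian (EuclideanSpace ℝ (Fin d))).real A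
        + (c * (1 + l ^ 2 / 2 - l ^ 4 / 24 + l ^ 6 / 240) - l / 2) := by
  set γ := stdGaussian (EuclideanSpace ℝ (Fin d)) with hγ
  have hid : Integrable (fun x : EuclideanSpace ℝ (Fin d) => x) γ := IsGaussian.integrable_id
  have hint1 : Integrable (fun x => ⟪u, x⟫) (γ.restrict A) := hid.restrict.const_inner u
  have hp : Integrable (fun x => max (⟪u, x⟫ - l) 0) γ :=
    integrable_comp_inner d u hu (fun y => max (y - l) 0) (by fun_prop) (integrable_pos l hl)
  have hint2 : Integrable (fun x => l + max (⟪u, x⟫ - l) 0) (γ.restrict A) :=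
    (integrable_const _).add hp.restrict
  have h2 : ∫ x in A, ⟪u, x⟫ ∂γ ≤ ∫ x in A, (l + max (⟪u, x⟫ - l) 0) ∂γ := by
    refine integral_mono hint1 hint2 (fun x => ?_)
    show ⟪u, x⟫ ≤ l + max (⟪u, x⟫ - l) 0
    linarith [le_max_left (⟪u, x⟫ - l) 0]
  have h3 : ∫ x in A, (l + max (⟪u, x⟫ - l) 0) ∂γ
      = l * γ.real A + ∫ x in A, max (⟪u, x⟫ - l) 0 ∂γ := by
    rw [integral_add (integrable_const _) hp.restrict]
    simp [Measure.real]
    ring
  have h4 : ∫ x in A, max (⟪u, x⟫ - l) 0 ∂γ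
      ≤ c * (1 + l ^ 2 / 2 - l ^ 4 / 24 + l ^ 6 / 240) - l / 2 := by
    refine le_trans (setIntegral_le_integral hp
      (Filter.Eventually.of_forall (fun x => le_max_right _ _))) ?_
    rw [integral_comp_inner d u hu (fun y => max (y - l) 0) (by fun_prop)]
    exact psi_le' l hl
  linarith

/-- the elementary optimisation for a cell of measure at most `1/16` -/
lemma numeric_small (s a : ℝ) (hs : 0 ≤ s) (ha : 0 ≤ a) (ha' : a ≤ 1 / 16)
    (hquad : ∀ k : ℝ, 0 ≤ k →
      k * (s - 0.575 * a) ≤ a / 4 + k ^ 2 * ((1 - 4 * c * 0.575 + 0.575 ^ 2) / 2)) :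
    s ^ 2 ≤ 0.358 * a := by
  have hc2 := c_gt
  rcases le_total s (0.575 * a) with hsa | hsa
  · nlinarith
  · have hw : 0 ≤ s - 0.575 * a := by linarith
    have hV : (1 - 4 * c * 0.575 + 0.575 ^ 2) / 2 ≤ (0.20658 : ℝ) := by nlinarith
    have hk := hquad ((s - 0.575 * a) / (2 * 0.20658)) (by positivity)
    have hk2 : ((s - 0.575 * a) / (2 * 0.20658)) ^ 2 * ((1 - 4 * c * 0.575 + 0.575 ^ 2) / 2)
        ≤ ((s - 0.575 * a) / (2 * 0.20658)) ^ 2 * 0.20658 :=
      mul_le_mul_of_nonneg_left hV (by positivity)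
    have hw2 : (s - 0.575 * a) ^ 2 ≤ 0.20658 * a := by
      have e1 : (s - 0.575 * a) / (2 * 0.20658) * (s - 0.575 * a)
          = (s - 0.575 * a) ^ 2 / (2 * 0.20658) := by ring
      have e2 : ((s - 0.575 * a) / (2 * 0.20658)) ^ 2 * 0.20658
          = (s - 0.575 * a) ^ 2 / (4 * 0.20658) := by
        field_simp
        ring
      rw [e1] at hk
      rw [e2] at hk2
      have e3 : (s - 0.575 * a) ^ 2 / (2 * 0.20658) - (s - 0.575 * a) ^ 2 / (4 * 0.20658)
          = (s - 0.575 * a) ^ 2 / (4 * 0.20658) := by ring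
      have e4 : (s - 0.575 * a) ^ 2 / (4 * 0.20658) ≤ a / 4 := by linarith
      rw [div_le_iff₀ (by norm_num)] at e4
      linarith
    have h1 : s - 0.575 * a ≤ 0.11363 := by
      by_contra hcon
      push Not at hcon
      nlinarith
    have h2 : a * (s - 0.575 * a) ≤ a * 0.11363 := mul_le_mul_of_nonneg_left h1 ha
    have h3 : a * a ≤ a * (1 / 16) := mul_le_mul_of_nonneg_left ha' ha
    have h4 : s ^ 2 = (s - 0.575 * a) ^ 2 + 2 * 0.575 * (a * (s - 0.575 * a))
        + 0.575 ^ 2 * (a * a) := by ring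
    rw [h4]
    nlinarith

/-- the elementary optimisation for a cell of measure between `1/16` and `1/7` -/
lemma numeric_mid (s a : ℝ) (hs : 0 ≤ s) (ha : 1 / 16 ≤ a) (ha' : a ≤ 1 / 7)
    (hline : s ≤ 1.1 * a + (c * (1 + 1.1 ^ 2 / 2 - 1.1 ^ 4 / 24 + 1.1 ^ 6 / 240) - 1.1 / 2)) :
    s ^ 2 ≤ 0.358 * a := by
  have hc := c_lt'
  have h1 : s ≤ 1.1 * a + 0.068922 := by nlinarith
  have h2 : s ^ 2 ≤ (1.1 * a + 0.068922) ^ 2 := by
    apply pow_le_pow_left₀ hs h1
  nlinarith [mul_nonneg (sub_nonneg.mpr ha) (sub_nonneg.mpr ha')]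

lemma const_le : (0.358 : ℝ) ≤ 9 / (8 * Real.pi) := by
  have h := Real.pi_lt_d4
  have hp := Real.pi_pos
  rw [le_div_iff₀ (by positivity)]
  nlinarith

/-- one cell of Gaussian measure at most `1/7` or at least `9/20` -/
lemma cell_bound_small (d : ℕ) (A : Set (EuclideanSpace ℝ (Fin d)))
    (hA : (stdGaussian (EuclideanSpace ℝ (Fin d))).real A ≤ 1 / 7
      ∨ 9 / 20 ≤ (stdGaussian (EuclideanSpace ℝ (Fin d))).real A) :
    ‖∫ x in A, x ∂(stdGaussian (EuclideanSpace ℝ (Fin d)))‖ ^ 2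
      ≤ 0.358 * (stdGaussian (EuclideanSpace ℝ (Fin d))).real A := by
  set γ := stdGaussian (EuclideanSpace ℝ (Fin d)) with hγ
  set z := ∫ x in A, x ∂γ with hz
  have hid : Integrable (fun x : EuclideanSpace ℝ (Fin d) => x) γ := IsGaussian.integrable_id
  by_cases hz0 : z = 0
  · rw [hz0]
    simp
    positivity
  have hs : 0 < ‖z‖ := norm_pos_iff.mpr hz0
  set u : EuclideanSpace ℝ (Fin d) := (‖z‖)⁻¹ • z with hu
  have hu1 : ‖u‖ = 1 := by
    rw [hu, norm_smul, norm_inv, norm_norm]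
    field_simp
  have h1 : ∫ x in A, ⟪u, x⟫ ∂γ = ‖z‖ := by
    rw [integral_inner hid.restrict u, ← hz, hu, real_inner_smul_left,
      real_inner_self_eq_norm_sq]
    field_simp
  rcases hA with hA | hA
  · rcases le_total (γ.real A) (1 / 16) with h16 | h16
    · refine numeric_small ‖z‖ (γ.real A) hs.le measureReal_nonneg h16 (fun k hk => ?_)
      rw [← h1]
      exact quad_bound d A u hu1 0.575 (by norm_num) k hk
    · refine numeric_mid ‖z‖ (γ.real A) hs.le h16 hA ?_
      rw [← h1]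
      exact line_bound' d A u hu1 1.1 (by norm_num)
  · have h0 := line_bound' d A u hu1 0 le_rfl
    rw [h1] at h0
    have hc := c_lt'
    have h2 : ‖z‖ ≤ 0.39895 := by
      norm_num at h0
      linarith
    nlinarith

/-- The propeller inequality holds for every family of pairwise disjoint measurable cells of `ℝ^d`
each of which has Gaussian measure at most `1/7` or at least `9/20`. -/
theorem result (d k : ℕ) (A : Fin k → Set (EuclideanSpace ℝ (Fin d)))
    (hA : ∀ i, MeasurableSet (A i)) (hdisj : Pairwise (Function.onFun Disjoint A))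
    (hsmall : ∀ i, (stdGaussian (EuclideanSpace ℝ (Fin d))).real (A i) ≤ 1 / 7
      ∨ 9 / 20 ≤ (stdGaussian (EuclideanSpace ℝ (Fin d))).real (A i)) :
    ∑ i, ‖∫ x in A i, x ∂(stdGaussian (EuclideanSpace ℝ (Fin d)))‖ ^ 2
      ≤ 9 / (8 * Real.pi) := by
  calc ∑ i, ‖∫ x in A i, x ∂(stdGaussian (EuclideanSpace ℝ (Fin d)))‖ ^ 2
      ≤ ∑ i, 0.358 * (stdGaussian (EuclideanSpace ℝ (Fin d))).real (A i) :=
        Finset.sum_le_sum (fun i _ => cell_bound_small d (A i) (hsmall i))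
    _ = 0.358 * (stdGaussian (EuclideanSpace ℝ (Fin d))).real (⋃ i, A i) := by
        rw [measureReal_iUnion_fintype hdisj hA, Finset.mul_sum]
    _ ≤ 0.358 := by
        have : (stdGaussian (EuclideanSpace ℝ (Fin d))).real (⋃ i, A i) ≤ 1 :=
          measureReal_le_one
        linarith
    _ ≤ 9 / (8 * Real.pi) := const_le

end Vale.Agent.Results.P226.SmallCells
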